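import Vale.Agent.N107.Transfer

/-!
Every global classical solution of the three-dimensional one-species relativistic Vlasov-Maxwell
system disperses: its energy leaves every ball.
-/

open MeasureTheory Set Filter Topology

namespace Vale.Agent.P107.RVM

theorem _root_.Vale.Agent.Results.P107.A0LocalDecay.result :
    -- the energy in every ball tends to zero
    (∀ (f : ℝ → V3 → V3 → ℝ) (E B : ℝ → V3 → V3), (∀ T, 0 < T → IsClassicalSolution T f E B) →
      ∀ (x₀ : V3) (R : ℝ), Tendsto (fun t => ∫ x in {x | len (x - x₀) ≤ R},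
        ((∫ v, q v * f t x v) + (len (E t x) ^ 2 + len (B t x) ^ 2) / 2)) atTop (𝓝 0)) ∧
    -- space-time bound of the kinetic and field energy in every ball
    (∀ (f : ℝ → V3 → V3 → ℝ) (E B : ℝ → V3 → V3), (∀ T, 0 < T → IsClassicalSolution T f E B) →
      ∀ (x₀ : V3) (R : ℝ), 0 < R →
        IntegrableOn (fun t => ∫ x in {x | len (x - x₀) ≤ R},
          ((∫ v, len v ^ 2 / q v * f t x v) + (len (E t x) ^ 2 + len (B t x) ^ 2) / 2)) (Ioi 0) ∧
        (∫ t in Ioi (0 : ℝ), ∫ x in {x | len (x - x₀) ≤ R},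
          ((∫ v, len v ^ 2 / q v * f t x v) + (len (E t x) ^ 2 + len (B t x) ^ 2) / 2))
          ≤ 6 * R * totalEnergy f E B 0) ∧
    -- the charge in every ball is square integrable in time, with a universal constant
    (∃ C : ℝ, ∀ (f : ℝ → V3 → V3 → ℝ) (E B : ℝ → V3 → V3),
      (∀ T, 0 < T → IsClassicalSolution T f E B) → ∀ (x₀ : V3) (R : ℝ), 0 < R →
        IntegrableOn (fun t => (∫ x in {x | len (x - x₀) ≤ R}, rho f t x) ^ 2) (Ioi 0) ∧
        (∫ t in Ioi (0 : ℝ), (∫ x in {x | len (x - x₀) ≤ R}, rho f t x) ^ 2)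
          ≤ C * R ^ 2 * totalEnergy f E B 0) := by
  refine ⟨fun f E B h x₀ R => ?_, fun f E B h x₀ R hR => ?_, ?_⟩
  · have k := N107.decay_global (fun T hT => isClassicalSolution_ff (h T hT)) (coo.symm x₀) R
    rw [N107.q_eq, funext (N107.bal_ff q 1 x₀ R f E B)] at k
    simpa only [one_mul] using k
  · have k := N107.morawetz_global (fun T hT => isClassicalSolution_ff (h T hT)) (coo.symm x₀) hR
    rw [N107.kw_eq, N107.energy0_ff h,
      funext (N107.bal_ff (fun v => len v ^ 2 / q v) 1 x₀ R f E B)] at k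
    simpa only [one_mul] using k
  · obtain ⟨C, hC⟩ := N107.charge_global
    refine ⟨C, fun f E B h x₀ R hR => ?_⟩
    have k := hC _ _ _ (fun T hT => isClassicalSolution_ff (h T hT)) (coo.symm x₀) R hR
    rw [N107.energy0_ff h, funext (N107.bal_ff (fun _ => 1) 0 x₀ R f E B)] at k
    simpa only [one_mul, zero_mul, add_zero, rho] using k

end Vale.Agent.P107.RVM
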