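import Vale.Agent.N107X.Bridge

/-!
The momenta of classical solutions of the three-dimensional one-species relativistic
Vlasov-Maxwell system grow at most double exponentially.
-/

open Set

namespace Vale.Agent.N107X

theorem _root_.Vale.Agent.Results.P107.A0MomentumGrowth.result :
    ∀ f₀ E₀ B₀, Admissible f₀ E₀ B₀ → ∃ C : ℝ, ∀ T f E B, Solution T f E B →
      f 0 = f₀ → E 0 = E₀ → B 0 = B₀ → ∀ t ∈ Time T, ∀ x v, f t (x, v) ≠ 0 →
        ‖v‖ ≤ Real.exp (Real.exp (C * (1 + t) ^ 35)) := by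
  intro f₀ E₀ B₀ h
  obtain ⟨C, hC⟩ := P107.momentum_growth h.dat
  refine ⟨C, fun T f E B hs f0 E0 B0 t ht x v hne => ?_⟩
  obtain ⟨S, h1, h2⟩ := exists_real ht
  exact hC S _ E B (hs.classical h2) (fun x v => congrFun f0 (x, v)) E0 B0 t ⟨ht.1, h1⟩ x v hne

end Vale.Agent.N107X
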